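import Vale.Agent.P263.K.GamNe2
import Vale.Agent.P263.ST.Bridge2

/-!
# P263, the literal Kervaire invariant, block H1: the map `gamma` on `S^(d+K)`

* `castS h : S^a ≃ₜ S^b` for `h : a = b`; `castS_join` : associativity of the smash product.
* `gam1 A hA : S^(d+K) → (ℝᴷ × PV)⁺`, `K = n + kk n` : the literal `J` of the adjoint of `A`.
* `gam1_mu` : `sing (gam1 A) ∘ mu = jz ∘ (sing A × 1)`.
* `rep_susp` : the suspended adjoint represents `g`.
* `lam_gam1` : `lamS n ∘ gam1 A` is homotopic to the suspended adjoint, relative to `∞`.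
-/

noncomputable section

open OnePoint Topology

namespace Vale.Agent.P263.FR

open Vale.Agent.P263.S Vale.Agent.P263.E Vale.Agent.P263.TJ Vale.Agent.P263.G2

section cast

/-- coordinates -/
def castH {a b : ℕ} (h : a = b) : (Fin a → ℝ) ≃ₜ (Fin b → ℝ) where
  toFun v j := v (Fin.cast h.symm j)
  invFun v j := v (Fin.cast h j)
  left_inv _ := rfl
  right_inv _ := rfl
  continuous_toFun := by fun_prop
  continuous_invFun := by fun_prop

/-- spheres of the same dimension -/
def castS {a b : ℕ} (h : a = b) : T0.Sph a ≃ₜ T0.Sph b := (castH h).onePointCongr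

@[simp] theorem castS_infty {a b : ℕ} (h : a = b) : castS h ∞ = ∞ := rfl

theorem castS_coe {a b : ℕ} (h : a = b) (v : Fin a → ℝ) :
    castS h (v : T0.Sph a) = ((castH h v : Fin b → ℝ) : T0.Sph b) := rfl

theorem castS_join {d n k : ℕ} (h : d + (n + k) = d + n + k) (x : T0.Sph d) (y : T0.Sph n)
    (z : T0.Sph k) : castS h (join2 x (join2 y z)) = join2 (join2 x y) z := by
  induction x using OnePoint.rec with
  | infty => rw [join2_infty_left, join2_infty_left, join2_infty_left]; rfl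
  | coe x =>
    induction y using OnePoint.rec with
    | infty =>
      rw [join2_infty_left, join2_infty_right, join2_infty_right, join2_infty_left]; rfl
    | coe y =>
      induction z using OnePoint.rec with
      | infty => rw [join2_infty_right, join2_infty_right, join2_infty_right]; rfl
      | coe z =>
        rw [join2_coe, join2_coe, join2_coe, join2_coe, castS_coe]
        refine congrArg _ ?_
        have h1 := Fin.append_assoc x y z
        rw [h1]
        funext j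
        rfl

end cast

section gam

variable {d n : ℕ}

/-- the literal `J` of the adjoint of `A`, on `S^(d+K)`, `K = n + kk n` -/
def gam1 (A : C(T0.Sph d, T0.Om n)) (hA : A ∞ = T0.Om.const n) :
    C(T0.Sph (d + (n + KJ.kk n)), OnePoint ((Fin (n + KJ.kk n) → ℝ) × KJ.PV (KJ.VV n))) :=
  (KJ.gamS (adjS A hA) (adjS_infty A hA)).comp
    ⟨castS (Nat.add_assoc d n (KJ.kk n)).symm, Homeomorph.continuous _⟩

theorem gam1_infty (A : C(T0.Sph d, T0.Om n)) (hA : A ∞ = T0.Om.const n) :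
    gam1 A hA ∞ = ∞ := KJ.gamS_infty (adjS A hA) (adjS_infty A hA)

theorem gam1_join (A : C(T0.Sph d, T0.Om n)) (hA : A ∞ = T0.Om.const n) (x : T0.Sph d)
    (v : T0.Sph n) (u : T0.Sph (KJ.kk n)) :
    gam1 A hA (join2 x (join2 v u)) = KJ.jv (KJ.eK n) (A x) (join2 v u) := by
  show KJ.gamS (adjS A hA) (adjS_infty A hA)
    (castS (Nat.add_assoc d n (KJ.kk n)).symm (join2 x (join2 v u))) = _
  rw [castS_join, KJ.gamS_join2]

/-- **the strict identity** -/
theorem gam1_mu (A : C(T0.Sph d, T0.Om n)) (hA : A ∞ = T0.Om.const n) :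
    (singMap (gam1 A hA)).comp (mu d (n + KJ.kk n)) =
      (KJ.jz (KJ.eK n)).comp (timesN (singMap A) (n + KJ.kk n)) := by
  apply SS.Map.ext
  intro p z
  apply ContinuousMap.ext
  intro t
  have h1 := gam1_join A hA (toC z.1 t) (cxC (KJ.tau1 z.2) t) (cxC (KJ.tau2 z.2) t)
  have h2 := KJ.cxC_split (z.2 : Fin (n + KJ.kk n) → Op p 1) t
  have h3 : gam1 A hA (join2 (toC z.1 t) (cxC z.2 t)) =
      KJ.jv (KJ.eK n) (A (toC z.1 t)) (cxC z.2 t) := by
    rw [h2]
    exact h1
  exact h3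

/-- the suspended adjoint on `S^(d+K)` -/
def sus1 (A : C(T0.Sph d, T0.Om n)) (hA : A ∞ = T0.Om.const n) :
    C(T0.Sph (d + (n + KJ.kk n)), T0.Sph (n + KJ.kk n)) :=
  (KJ.susp (adjS A hA) (adjS_infty A hA) (KJ.kk n)).comp
    ⟨castS (Nat.add_assoc d n (KJ.kk n)).symm, Homeomorph.continuous _⟩

theorem sus1_join (A : C(T0.Sph d, T0.Om n)) (hA : A ∞ = T0.Om.const n) (x : T0.Sph d)
    (v : T0.Sph n) (u : T0.Sph (KJ.kk n)) :
    sus1 A hA (join2 x (join2 v u)) = join2 (A x v) u := by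
  show KJ.susp (adjS A hA) (adjS_infty A hA) (KJ.kk n)
    (castS (Nat.add_assoc d n (KJ.kk n)).symm (join2 x (join2 v u))) = _
  rw [castS_join, KJ.susp_join2, adjS_join2]

/-- the stabilized family -/
def stA (A : C(T0.Sph d, T0.Om n)) (k : ℕ) : C(T0.Sph d, T0.Om (n + k)) :=
  (K.stabN n k).comp A

theorem rep_stA {g : T0.BMap d} {A : C(T0.Sph d, T0.Om n)} (h : K.Rep g n A) (k : ℕ) :
    K.Rep g (n + k) (stA A k) where
  base := by
    apply T0.toQ_injective (n + k)
    show T0.toQ (n + k) (K.stabN n k (A ∞)) = _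
    rw [K.toQ_stabN, h.base, T0.toQ_const, T0.toQ_const]
  eq x := by
    show T0.toQ (n + k) (K.stabN n k (A x)) = _
    rw [K.toQ_stabN]
    exact h.eq x

theorem sus1_eq {g : T0.BMap d} {A : C(T0.Sph d, T0.Om n)} (h : K.Rep g n A) :
    sus1 A h.base = adjS (stA A (KJ.kk n)) (rep_stA h (KJ.kk n)).base := by
  refine ContinuousMap.ext fun z => ?_
  rcases ST.sph_cases z with rfl | ⟨x, w, rfl⟩
  · rw [adjS_infty]
    show KJ.susp (adjS A h.base) (adjS_infty A h.base) (KJ.kk n) ∞ = ∞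
    rw [KJ.susp_infty]
  · obtain ⟨v, u, hw⟩ : ∃ (v : Fin n → ℝ) (u : Fin (KJ.kk n) → ℝ),
        ((w : Fin (n + KJ.kk n) → ℝ) : T0.Sph (n + KJ.kk n)) =
          join2 (v : T0.Sph n) (u : T0.Sph (KJ.kk n)) := by
      refine ⟨fun i => w (Fin.castAdd _ i), fun j => w (Fin.natAdd _ j), ?_⟩
      rw [join2_coe]
      congr 1
      exact (Fin.append_castAdd_natAdd).symm
    rw [hw, sus1_join, adjS_join2]
    show _ = K.stabN n (KJ.kk n) (A (x : T0.Sph d)) (join2 (v : T0.Sph n) (u : T0.Sph (KJ.kk n)))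
    rw [K.stabN_join2]

/-- **the suspended adjoint represents `g`** -/
theorem rep_susp {g : T0.BMap d} {A : C(T0.Sph d, T0.Om n)} (h : K.Rep g n A) :
    ST.Rep (d := d) (n := n + KJ.kk n) g (CategoryTheory.ConcreteCategory.ofHom (sus1 A h.base)) :=
  (ST.rep_iff g (sus1 A h.base)).2 ⟨stA A (KJ.kk n), rep_stA h (KJ.kk n), sus1_eq h⟩

/-- **the Kahn-Priddy factorization** -/
theorem lam_gam1 (hd : 0 < d) (A : C(T0.Sph d, T0.Om n)) (hA : A ∞ = T0.Om.const n) :
    ((KJ.lamS n).comp (gam1 A hA)).HomotopicRel (sus1 A hA) {∞} := by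
  obtain ⟨H⟩ := KJ.kp hd (adjS A hA) (adjS_infty A hA)
  let c : C(T0.Sph (d + (n + KJ.kk n)), T0.Sph (d + n + KJ.kk n)) :=
    ⟨castS (Nat.add_assoc d n (KJ.kk n)).symm, Homeomorph.continuous _⟩
  refine ⟨⟨⟨⟨fun z => H (z.1, c z.2), by fun_prop⟩, fun z => ?_, fun z => ?_⟩, fun t z hz => ?_⟩⟩
  · exact H.apply_zero (c z)
  · exact H.apply_one (c z)
  · obtain rfl : z = ∞ := hz
    exact H.eq_fst t (x := (∞ : T0.Sph (d + n + KJ.kk n))) rfl

end gam

end Vale.Agent.P263.FR
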