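import Vale.Agent.P263.FR.Base
import Vale.Agent.P263.FR.H561.Gam
import Vale.Agent.P263.KJ.Ind
import Vale.Agent.P263.K.HPFin
import Vale.Agent.P263.ST.Final
import Vale.Agent.P263.ST.CmpI

/-!
# P263, the literal Kervaire invariant, block H1

* `evc_theta_tw` : the value of the twisted data on `gam1 A`, from a chain of boxes.
* `theta_dif_deg` : the difference of two data of the same class and degree, with its degree.
* `evc_theta_eq` : the value on a sphere does not depend on the data for `w^c`.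
* `phi_gam1` : `Phi (gam1 A) (w^c) = 1` from a chain of boxes.
* `exists_gamma` : **V5-H1**: for `h_d(g) ≠ 0`, `d + 2 = 2^(s+1)`.
-/

noncomputable section

open OnePoint Topology

namespace Vale.Agent.P263.FR

open Vale.Agent.P263.S hiding sn sn_add
open Vale.Agent.P263.E Vale.Agent.P263.H83 Vale.Agent.P263.G2 Vale.Agent.P263.TJ
open Vale.Agent.P263.T0 CupC

section tw

variable {r d k : ℕ}

/-- **The value of the twisted data**, from a chain of boxes. -/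
theorem evc_theta_tw {N : ℕ} {c : GB.Cut} {R : T0.Om (r + 1)}
    {x : Cc (sing (KJ.PV (KJ.VE (r + 1))))} (hq : Cc.IsDeg (k + 1) x) (hx : Cc.d x = 0)
    (A : C(T0.Sph d, T0.Om (r + 1))) (hA : A ∞ = T0.Om.const (r + 1))
    (hf : IsCyc d (fcyc d)) {ξ : Chn (ZMod 2) (FNr (r + 1) N Unit) d} (hξ : IsCyc d ξ)
    (hbd : IsBd (push (ZMod 2) (gBR r N c R) d ξ - push (ZMod 2) (singMap A) d (fcyc d))) :
    evc (theta (KJ.twT (K.eI r) hq hx) (cu (K := K.iK r + 1) (gam1 A hA))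
      (cu_base (gam1_infty A hA))) (fcyc d) =
      evc (Cc.pull ((KJ.idxFR (r + 1) N).map (Sb.empty _))
        (KK (KJ.lab2 (r + 1)).lab (Sb.empty _) 0 0
          (KJ.extP (r + 1) (Cc.pull (KJ.ellM (KJ.ctrC r c)) x)))) ξ := by
  have h1 := theta_pull (KJ.twT (K.eI r) hq hx) (m := KJ.jz (K.eI r))
    (hm := KJ.jz_base (K.eI r)) (singMap A) (m' := cu (K := K.iK r + 1) (gam1 A hA))
    (hm' := cu_base (gam1_infty A hA)) (gam1_mu A hA)
  rw [evc_coh h1 hf, evc_pull,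
    ← KJ.evc_eq_of_isBd (d_theta (KJ.twT (K.eI r) hq hx) (KJ.jz (K.eI r))
      (KJ.jz_base (K.eI r))) hbd, ← evc_pull]
  exact evc_coh (KJ.value_lit (K.eI r) hq hx (K.eI_zero r) N c R) hξ

end tw

section dif

variable {P : Type} [TopologicalSpace P] [CompactSpace P] [T2Space P] {i q : ℕ}

/-- the difference of two data of the same class and degree -/
theorem theta_dif_deg {D D' : SqD (bsT (i + 1) P) (i + 1)}
    (hb : Cc.IsDeg (q + (i + 1)) D.b) (hb' : Cc.IsDeg (q + (i + 1)) D'.b)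
    (hc : Cc.IsDeg (q + q + (i + 1)) D.c) (hc' : Cc.IsDeg (q + q + (i + 1)) D'.c)
    (hz : (Cc.cupC (sing P)).Coh (DstN (i + 1) (Cc.pull (muT (i + 1) P) D.b))
      (DstN (i + 1) (Cc.pull (muT (i + 1) P) D'.b))) :
    ∃ y : Cc (sing (TT (i + 1) P)), Vn (bsT (i + 1) P) y ∧ Cc.d y = 0 ∧
      Cc.IsDeg (q + q + (i + 1)) y ∧
      ∀ {X : SS} (m : SS.Map (X.prod (SN (i + 1))) (sing (TT (i + 1) P)))
        (hm : ∀ {p : ℕ} (x : (X.prod (SN (i + 1))).obj p), (bdX X (i + 1)).mem x →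
          (bsT (i + 1) P).mem (m.app x)),
        (Cc.cupC X).Coh (theta D m hm + theta D' m hm) (DstN (i + 1) (Cc.pull m y)) := by
  obtain ⟨a, ha, hab⟩ := relT_null (w := D.b + D'.b) (D.vn_b.add D'.vn_b)
    (by rw [d_add, D.d_b, D'.d_b, add_zero]) (coh_zero.2 (by
      obtain ⟨a, ha⟩ := hz
      exact ⟨a, by rw [pull_add, DstN_add]; exact ha⟩))
  obtain ⟨a', ha', hdeg, hab'⟩ : ∃ a', Vn (bsT (i + 1) P) a' ∧ Cc.IsDeg (q + i) a' ∧
      D.b + D'.b = Cc.d a' := by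
    refine ⟨Cc.comp (q + i) a, Cc.vn_comp ha _, Cc.isDeg_comp _ _, ?_⟩
    rw [← Cc.comp_d, ← hab]
    exact (Cc.comp_eq (hb.add hb')).symm
  refine ⟨D.c + D'.c + (Cc.cup i a' a' + Cc.cup (i + 1) a' (Cc.d a')) + Cc.cup (i + 1) D.b a' +
    Cc.cup (i + 1) a' D.b, ?_, ?_, ?_, fun m hm => theta_coh D D' ha' hab'⟩
  · exact ((((D.vn_c.add D'.vn_c).add ((ha'.cup_left i a').add (ha'.cup_left (i + 1) _))).add
      (D.vn_b.cup_left (i + 1) a')).add (ha'.cup_left (i + 1) _))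
  · have h1 : Cc.d (Cc.cup i a' a' + Cc.cup (i + 1) a' (Cc.d a')) =
        Cc.cup (i + 1) (Cc.d a') (Cc.d a') := (Cc.cupC (sing (TT (i + 1) P))).d_q i a'
    rw [d_add, d_add, d_add, d_add, h1, ← D.d_c, ← D'.d_c, TJ.d_cup, TJ.d_cup, D.d_b, ← hab']
    have hb' : D'.b = D.b + Cc.d a' := by
      rw [← hab', ← add_assoc, cc_add_self, zero_add]
    rw [hb']
    simp only [cup_add_left, cup_add_right, cup_zero_left, cup_zero_right]
    funext p z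
    simp only [Pi.add_apply, Pi.zero_apply]
    grind
  · exact ((((hc.add hc').add ((hdeg.cup hdeg (by omega)).add
      (hdeg.cup hdeg.d (by omega)))).add (hb.cup hdeg (by omega))).add
      (hdeg.cup hb (by omega)))

end dif

section sph

variable {V : Type} [NormedAddCommGroup V] [InnerProductSpace ℝ V] [FiniteDimensional ℝ V]
  {i c d : ℕ}

/-- the classes of degree `K + 2c` of the target go to zero on the sphere of dimension
`2c + K` -/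
theorem evc_int_zero (hV : ∃ e, Module.finrank ℝ V = e + 1 ∧ c + c < e) (hc0 : 0 < c)
    (hd : d = 2 * c) (hf : IsCyc d (fcyc d))
    {γ : C(T0.Sph (d + (i + 1)), TT (i + 1) (KJ.PV V))} (hγ : γ ∞ = ∞)
    {b y : Cc (sing (TT (i + 1) (KJ.PV V)))} (hb0 : Cc.IsDeg (i + 1 + c) b)
    (hvb : Vn (bsT (i + 1) (KJ.PV V)) b) (hdb : Cc.d b = 0)
    (hb : ∃ a, Vn (bdX (sing (KJ.PV V)) (i + 1)) a ∧
      Cc.pull (muT (i + 1) (KJ.PV V)) b = TJ.sn (i + 1) (KJ.Cc.pw (KJ.wP V) c) + Cc.d a)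
    (hvy : Vn (bsT (i + 1) (KJ.PV V)) y) (hdy : Cc.d y = 0)
    (hy : Cc.IsDeg (i + 1 + (c + c)) y) :
    evc (DstN (i + 1) (Cc.pull (cu γ) y)) (fcyc d) = 0 := by
  obtain ⟨e, he, hce⟩ := hV
  have hU : ∀ z : Cc (sing (T0.Sph (d + (i + 1)))), Cc.IsDeg (i + 1 + c) z →
      Vn (bs (d + (i + 1))) z → Cc.d z = 0 →
      ∃ e, Vn (bs (d + (i + 1))) e ∧ Cc.d e = z := by
    intro z hz hvz hdz
    obtain ⟨w, hw⟩ := (SphCc.rel_van (d := d + (i + 1)) (by omega) (n := i + 1 + c)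
      (by omega)).exists (G := Cc.relGr (bs (d + (i + 1)))) (z := Cc.mkRel _ z hvz) hz
      (Cc.rel_ext hdz)
    exact ⟨Cc.val w, Cc.vn_val w, (congrArg Cc.val hw).symm⟩
  obtain ⟨a, ha, hda⟩ := KJ.ind_null' he hc0 hce (singMap γ) (U0 := bs (d + (i + 1)))
    (fun x hx t => by
      show γ (toC x t) = ∞
      rw [hx t, hγ]) hU hb0 hvb hdb hb hvy hdy hy
  have h1 : Cc.pull (cu γ) y = Cc.d (Cc.pull (mu d (i + 1)) a) := by
    rw [← pull_d, hda]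
    rfl
  rw [h1, DstN_d ((ha.pull (mu d (i + 1))).mono fun x hx => mu_base hx)]
  exact KJ.evc_eq_zero_of_coh (coh_zero.2 ⟨_, rfl⟩) hf

/-- **The value on a sphere does not depend on the data for `w^c`.** -/
theorem evc_theta_eq (hV : ∃ e, Module.finrank ℝ V = e + 1 ∧ c + c < e) (hc0 : 0 < c)
    (hd : d = 2 * c) (hf : IsCyc d (fcyc d))
    {γ : C(T0.Sph (d + (i + 1)), TT (i + 1) (KJ.PV V))} (hγ : γ ∞ = ∞)
    {D D' : SqD (bsT (i + 1) (KJ.PV V)) (i + 1)}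
    (hb : Cc.IsDeg (c + (i + 1)) D.b) (hb' : Cc.IsDeg (c + (i + 1)) D'.b)
    (hc : Cc.IsDeg (c + c + (i + 1)) D.c) (hc' : Cc.IsDeg (c + c + (i + 1)) D'.c)
    (hD : ∃ a, Vn (bdX (sing (KJ.PV V)) (i + 1)) a ∧
      Cc.pull (muT (i + 1) (KJ.PV V)) D.b = TJ.sn (i + 1) (KJ.Cc.pw (KJ.wP V) c) + Cc.d a)
    (hD' : (Cc.cupC (sing (KJ.PV V))).Coh
      (DstN (i + 1) (Cc.pull (muT (i + 1) (KJ.PV V)) D'.b)) (KJ.Cc.pw (KJ.wP V) c)) :
    evc (theta D (cu γ) (cu_base hγ)) (fcyc d) = evc (theta D' (cu γ) (cu_base hγ)) (fcyc d) := by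
  have hDz : (Cc.cupC (sing (KJ.PV V))).Coh
      (DstN (i + 1) (Cc.pull (muT (i + 1) (KJ.PV V)) D.b)) (KJ.Cc.pw (KJ.wP V) c) := by
    obtain ⟨a, ha, ha'⟩ := hD
    rw [ha', DstN_add, DstN_sn, DstN_d ha]
    refine ⟨DstN (i + 1) a, ?_⟩
    show KJ.Cc.pw (KJ.wP V) c + Cc.d (DstN (i + 1) a) + KJ.Cc.pw (KJ.wP V) c =
      Cc.d (DstN (i + 1) a)
    rw [add_comm (KJ.Cc.pw (KJ.wP V) c), add_assoc, cc_add_self, add_zero]
  obtain ⟨y, hvy, hdy, hy, h⟩ := theta_dif_deg hb hb' hc hc' (hDz.trans hD'.symm)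
  have h1 := evc_coh (h (cu γ) (cu_base hγ)) hf
  rw [evc_int_zero hV hc0 hd hf hγ (K.isDeg_congr (add_comm _ _) hb) D.vn_b D.d_b hD hvy hdy
    (K.isDeg_congr (add_comm _ _) hy), evc_add] at h1
  exact CharTwo.add_eq_zero.1 h1

end sph

section main

variable {r d c : ℕ}

/-- **`Phi (gam1 A) (w^c) = 1`**, from a chain of boxes. -/
theorem phi_gam1 {N : ℕ} (hcr : 2 * c < r) (hc0 : 0 < c) (hd : 0 < d)
    (A : C(T0.Sph d, T0.Om (r + 1)))
    (hA : A ∞ = T0.Om.const (r + 1)) (cc : GB.Cut) (R : T0.Om (r + 1))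
    {v : Cc (FNr (r + 1) 2 Unit)} {s : Cc (OFr (r + 1) (Fin 2))} (hv : (KJ.d2 (r + 1)).Cl v s)
    {ξ : Chn (ZMod 2) (FNr (r + 1) N Unit) d} (hξ : IsCyc d ξ)
    (hbd : IsBd (push (ZMod 2) (gBR r N cc R) d ξ - push (ZMod 2) (singMap A) d (fcyc d)))
    (hval : evc (Cc.pull ((KJ.idxFS (r + 1) N).map (KJ.npS (r + 1)))
      (KK (KJ.lab2 (r + 1)).lab (KJ.npS (r + 1)) 0 0 (KJ.extP (r + 1) (KJ.Cc.pw v c)))) ξ = 1)
    (hdc : d = 2 * c) :
    Phi (d := d) (i := K.iK r) (gam1 A hA) (gam1_infty A hA)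
      (KJ.isDeg_pwP (KJ.VE (r + 1)) c) (KJ.d_pwP (KJ.VE (r + 1)) c) = 1 := by
  obtain ⟨k, rfl⟩ : ∃ k, c = k + 1 := ⟨c - 1, by omega⟩
  have hf : IsCyc d (fcyc d) := TOP.isCyc_sphCyc hd
  have hq := KJ.isDeg_pwP (KJ.VE (r + 1)) (k + 1)
  have hx := KJ.d_pwP (KJ.VE (r + 1)) (k + 1)
  obtain ⟨a, ha, -, hcl⟩ := KJ.twT_class k (K.eI r) (show k + 1 < r by omega)
  have h1 := evc_theta_tw hq hx A hA hf hξ hbd
  rw [K.evc_KK (KJ.ctrC r cc) hv hξ, hval] at h1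
  rw [← h1]
  exact (evc_theta_eq (i := K.iK r) (c := k + 1) ⟨r, finrank_euclideanSpace_fin, by omega⟩ hc0 hdc
    hf (gam1_infty A hA) (KJ.twT_deg_b (K.eI r) hq hx) (jR_deg_b hq hx)
    (KJ.twT_deg_c (K.eI r) hq hx) (jR_deg_c hq hx) ⟨a, ha, hcl⟩ (DstN_jR hq hx)).symm

end main

end Vale.Agent.P263.FR
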