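import Vale.Agent.P263.FR.H561.H1
import Vale.Agent.P263.ST.Done

/-!
# P263, the literal Kervaire invariant, block H1: the statement

* `exists_gam_of` : for `h_d(g) ≠ 0`, `d = 2q`, at all large stages `r` there is `A` with all
  properties.
* `exists_gamma` : **V5-H1**.
-/

noncomputable section

open OnePoint Topology CategoryTheory

namespace Vale.Agent.P263.FR

open Vale.Agent.P263.S hiding sn sn_add
open Vale.Agent.P263.E Vale.Agent.P263.H83 Vale.Agent.P263.G2 Vale.Agent.P263.TJ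
open Vale.Agent.P263.T0 CupC

/-- at all large stages `r` the map `gam1 A` of a representative `A` has `Phi (w^c) = 1` -/
def GamSt {d : ℕ} (g : T0.BMap d) (c : ℕ) : Prop :=
  ∃ r0 : ℕ, ∀ r, r0 ≤ r → ∃ (A : C(T0.Sph d, T0.Om (r + 1))) (hA : K.Rep g (r + 1) A),
    Phi (d := d) (i := K.iK r) (gam1 A hA.base) (gam1_infty A hA.base)
      (KJ.isDeg_pwP (KJ.VE (r + 1)) c) (KJ.d_pwP (KJ.VE (r + 1)) c) = 1

open Vale.Agent.P263.TOP Vale.Agent.P263.TOP.H Vale.Agent.P263.TW in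
theorem gamSt_of {d : ℕ} (hd : 0 < d) (g : T0.BMap d) (k : ℕ) (G : Geo d (2 ^ k))
    (h1 : hfun G.phi 1 = 0) (h : G.phi ≠ 0)
    (hst : ∃ r0 : ℕ, ∀ r, r0 ≤ r → Nonempty (Stage G (rkBox (2 ^ k)) g.1.hom r)) :
    ∃ c s : ℕ, d = 2 * c ∧ c + 1 = 2 ^ s ∧ 0 < s ∧ GamSt g c := by
  obtain ⟨r0, hst⟩ := hst
  obtain ⟨c, s, hc, hs⟩ : ∃ c s : ℕ, 0 + 2 * c = d ∧ c + 1 = 2 ^ s := by
    obtain ⟨X⟩ := hst r0 le_rfl
    obtain ⟨v, s', hv⟩ := (KJ.d2 (r0 + 1)).exists_cl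
    obtain ⟨c, s, hc, hs, -⟩ := K.value_KK X h1 h hv
    exact ⟨c, s, hc, hs⟩
  have hs1 : 0 < s := by
    rcases Nat.eq_zero_or_pos s with rfl | h0
    · exfalso
      rw [pow_zero] at hs
      omega
    · exact h0
  refine ⟨c, s, by omega, hs, hs1, r0 + d + 1, fun r hr => ?_⟩
  obtain ⟨X⟩ := hst r (by omega)
  obtain ⟨v, s', hv⟩ := (KJ.d2 (r + 1)).exists_cl
  obtain ⟨c', s'', hc', -, hval⟩ := K.value_KK X h1 h hv
  obtain rfl : c' = c := by omega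
  exact ⟨X.A, X.rep, phi_gam1 (by omega) (by omega) hd X.A X.rep.base GB.half X.R hv X.cyc X.bd'
    hval (by omega)⟩

open Vale.Agent.P263.TOP Vale.Agent.P263.TOP.H Vale.Agent.P263.TW in
/-- at all large stages -/
theorem exists_gam_of {d : ℕ} (g : T0.BMap d) (hg : ST.hur (d := d) g ≠ 0)
    (hd : ∃ s : ℕ, 0 < s ∧ d + 2 = 2 ^ (s + 1)) :
    ∃ c s : ℕ, d = 2 * c ∧ c + 1 = 2 ^ s ∧ 0 < s ∧ GamSt g c := by
  obtain ⟨s, hs, hds⟩ := hd
  have hd0 : 0 < d := by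
    have : 2 ^ 2 ≤ 2 ^ (s + 1) := Nat.pow_le_pow_right (by norm_num) (by omega)
    omega
  have hg' : T0.hur hd0 g ≠ 0 := by
    rw [← ST.hur_eq hd0 g]
    exact hg
  rcases ST.elt_of (fun N => rkBox N) (fun N D => isoUpTo_rkBox _ N D) ST.cmpOne hd0 g hg'
    (P := ∃ c s : ℕ, d = 2 * c ∧ c + 1 = 2 ^ s ∧ 0 < s ∧ GamSt g c)
    (fun k G _ h1 h hst => gamSt_of hd0 g k G h1 h hst) with ⟨⟨s', h'⟩, -⟩ | h
  · exfalso
    rcases Nat.eq_zero_or_pos s' with rfl | h0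
    · rw [pow_zero] at h'
      omega
    · obtain ⟨t, rfl⟩ : ∃ t, s' = t + 1 := ⟨s' - 1, by omega⟩
      rw [pow_succ] at h' hds
      omega
  · exact h.2

/-- **V5-H1.** For `h_d(g) ≠ 0`, `d + 2 = 2^(s+1)`, the map `g` has a representative which factors
up to homotopy as `Lf ∘ γ` through `(ℝᴷ × P(V))⁺`, `Lf` the suspended literal Kahn-Priddy map, and
the value of the quadratic form of `γ` on `w^q` is one. The dimension of `V` is as large as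
wanted. -/
theorem exists_gamma {d : ℕ} (g : T0.BMap d) (hg : ST.hur (d := d) g ≠ 0)
    (hd : ∃ s : ℕ, 0 < s ∧ d + 2 = 2 ^ (s + 1)) :
    ∃ q s : ℕ, d = 2 * q ∧ q + 1 = 2 ^ s ∧ 0 < s ∧ ∀ M : ℕ,
      ∃ (V : Type) (_ : NormedAddCommGroup V) (_ : InnerProductSpace ℝ V)
        (_ : FiniteDimensional ℝ V) (W : Type) (_ : NormedAddCommGroup W) (_ : NormedSpace ℝ W)
        (i : ℕ) (φ : (V × W) ≃L[ℝ] (Fin (i + 1) → ℝ))
        (Lf : C(TT (i + 1) (KJ.PV V), T0.Sph (i + 1)))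
        (F₀ : C(T0.Sph (d + (i + 1)), T0.Sph (i + 1)))
        (γ : C(T0.Sph (d + (i + 1)), TT (i + 1) (KJ.PV V))) (hγ : γ ∞ = ∞),
        M ≤ Module.finrank ℝ V ∧ KJ.IsLam φ Lf ∧
        ST.Rep (d := d) (n := i + 1) g (TopCat.ofHom F₀) ∧
        F₀.HomotopicRel (Lf.comp γ) {∞} ∧
        Phi γ hγ (KJ.isDeg_pwP V q) (KJ.d_pwP V q) = 1 := by
  have hd0 : 0 < d := by
    obtain ⟨s, hs, hds⟩ := hd
    have : 2 ^ 2 ≤ 2 ^ (s + 1) := Nat.pow_le_pow_right (by norm_num) (by omega)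
    omega
  obtain ⟨q, s, hq, hs, hs0, r0, h⟩ := exists_gam_of g hg hd
  refine ⟨q, s, hq, hs, hs0, fun M => ?_⟩
  obtain ⟨A, hA, hP⟩ := h (r0 + M) (Nat.le_add_right _ _)
  refine ⟨KJ.VV (r0 + M + 1), inferInstance, inferInstance, inferInstance, _, inferInstance,
    inferInstance, K.iK (r0 + M), KJ.phiS (r0 + M + 1), KJ.lamS (r0 + M + 1),
    sus1 A hA.base, gam1 A hA.base, gam1_infty A hA.base, ?_, KJ.isLam_lamS _,
    rep_susp hA, (lam_gam1 hd0 A hA.base).symm, hP⟩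
  rw [show Module.finrank ℝ (KJ.VV (r0 + M + 1)) = r0 + M + 1 from finrank_euclideanSpace_fin]
  omega

end Vale.Agent.P263.FR
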